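import Mathlib

/-!
Helper for P043: a finite exact-cover check by bit masks, and what it gives on the integers.
-/

namespace Vale.Agent.P043.R3.Boxes

/-- The class of a point and a colour modulo `(M, r)`. -/
def code (M : ℕ × ℕ) (r : ℕ) (g : ℤ × ℤ) (c : ℤ) : ℕ :=
  ((g.1 % (M.1 : ℤ)).toNat * M.2 + (g.2 % (M.2 : ℤ)).toNat) * r + (c % (r : ℤ)).toNat

/-- The classes of the sums of a base and a point. -/
def sums (M : ℕ × ℕ) (r : ℕ) (L : List ((ℤ × ℤ) × ℤ)) (R : List (ℤ × ℤ)) (v : ℤ × ℤ → ℤ) :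
    List ℕ :=
  L.flatMap fun l => R.map fun f => code M r (l.1 + f) (l.2 + v f)

/-- The union of a list as a bit mask. -/
def mask (K : List ℕ) : ℕ := K.foldr (fun k s => 2 ^ k ||| s) 0

/-- The sums run exactly once through the classes in `Q`. -/
def check (M : ℕ × ℕ) (r : ℕ) (L : List ((ℤ × ℤ) × ℤ)) (R : List (ℤ × ℤ)) (v : ℤ × ℤ → ℤ)
    (Q : ℕ → Bool) : Bool :=
  let K := sums M r L R v
  let s := mask K
  K.all (fun k => Q (k / r)) &&
    ((List.range (M.1 * M.2 * r)).all fun k => !Q (k / r) || s.testBit k) &&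
    K.length == ((List.range (M.1 * M.2 * r)).filter fun k => Q (k / r)).length

theorem testBit_mask (K : List ℕ) (k : ℕ) : (mask K).testBit k = true ↔ k ∈ K := by
  induction K with
  | nil => simp [mask]
  | cons a K ih =>
    have e : mask (a :: K) = 2 ^ a ||| mask K := rfl
    rw [e, Nat.testBit_lor, Bool.or_eq_true, ih, Nat.testBit_two_pow, List.mem_cons,
      decide_eq_true_iff, eq_comm]

theorem code_div {M : ℕ × ℕ} {r : ℕ} (hr : 0 < r) (g : ℤ × ℤ) (c : ℤ) :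
    code M r g c / r = code M 1 g 0 := by
  have h1 : (c % (r : ℤ)).toNat < r := by
    have := Int.emod_lt_of_pos c (by exact_mod_cast hr : (0 : ℤ) < r)
    have := Int.emod_nonneg c (by exact_mod_cast hr.ne' : (r : ℤ) ≠ 0)
    omega
  unfold code
  rw [Nat.mul_comm, Nat.mul_add_div hr, Nat.div_eq_of_lt h1]
  simp

theorem code_lt {M : ℕ × ℕ} {r : ℕ} (hM : 0 < M.1 ∧ 0 < M.2) (hr : 0 < r) (g : ℤ × ℤ) (c : ℤ) :
    code M r g c < M.1 * M.2 * r := by
  have hlt : ∀ (m : ℕ) (x : ℤ), 0 < m → (x % (m : ℤ)).toNat + 1 ≤ m := fun m x hm => by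
    have := Int.emod_lt_of_pos x (by exact_mod_cast hm : (0 : ℤ) < m)
    have := Int.emod_nonneg x (by exact_mod_cast hm.ne' : (m : ℤ) ≠ 0)
    omega
  have h1 := hlt M.1 g.1 hM.1
  have h2 := hlt M.2 g.2 hM.2
  have h3 := hlt r c hr
  unfold code
  calc _ < ((g.1 % (M.1 : ℤ)).toNat * M.2 + (g.2 % (M.2 : ℤ)).toNat + 1) * r := by
        rw [Nat.add_mul (_ + _) 1 r, Nat.one_mul]; omega
    _ ≤ M.1 * M.2 * r := by
        refine Nat.mul_le_mul_right r ?_
        calc _ ≤ ((g.1 % (M.1 : ℤ)).toNat + 1) * M.2 := by rw [Nat.add_mul, Nat.one_mul]; omega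
          _ ≤ _ := Nat.mul_le_mul_right _ h1

theorem check_spec {M : ℕ × ℕ} {r : ℕ} {L : List ((ℤ × ℤ) × ℤ)} {R : List (ℤ × ℤ)}
    {v : ℤ × ℤ → ℤ} {Q : ℕ → Bool} (hr : 0 < r) (hM : 0 < M.1 ∧ 0 < M.2)
    (h : check M r L R v Q = true) :
    (∀ l ∈ L, ∀ f ∈ R, Q (code M 1 (l.1 + f) 0) = true) ∧
    (∀ g c, Q (code M 1 g 0) = true →
      ∃ l ∈ L, ∃ f ∈ R, code M r (l.1 + f) (l.2 + v f) = code M r g c) ∧
    ∀ l ∈ L, ∀ f ∈ R, ∀ l' ∈ L, ∀ f' ∈ R,
      code M r (l.1 + f) (l.2 + v f) = code M r (l'.1 + f') (l'.2 + v f') → l = l' ∧ f = f' := by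
  simp only [check, Bool.and_eq_true, beq_iff_eq, List.all_eq_true, List.mem_range,
    Bool.or_eq_true, Bool.not_eq_true', testBit_mask] at h
  obtain ⟨⟨hQ, hall⟩, hlen⟩ := h
  have hmem : ∀ k, k ∈ sums M r L R v ↔
      ∃ l ∈ L, ∃ f ∈ R, code M r (l.1 + f) (l.2 + v f) = k := fun k => by
    simp [sums]
  refine ⟨fun l hl f hf => ?_, fun g c hg => ?_, ?_⟩
  · have := hQ _ ((hmem _).2 ⟨l, hl, f, hf, rfl⟩)
    rwa [code_div hr] at this
  · have hk := hall (code M r g c) (code_lt hM hr g c)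
    rw [code_div hr, hg] at hk
    exact (hmem _).1 (hk.resolve_left (by simp))
  have hnd : (sums M r L R v).Nodup := by
    have hset : (sums M r L R v).toFinset =
        ((List.range (M.1 * M.2 * r)).filter fun k => Q (k / r)).toFinset := by
      ext k
      simp only [List.mem_toFinset, List.mem_filter, List.mem_range]
      refine ⟨fun hk => ⟨?_, hQ k hk⟩, fun hk => (hall k hk.1).resolve_left (by simp [hk.2])⟩
      obtain ⟨l, _, f, _, rfl⟩ := (hmem k).1 hk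
      exact code_lt hM hr _ _
    have hc := congrArg Finset.card hset
    rw [List.toFinset_card_of_nodup (List.nodup_range.filter _), ← hlen] at hc
    exact Multiset.toFinset_card_eq_card_iff_nodup.1 hc
  intro l hl f hf l' hl' f' hf' he
  have hp : (L ×ˢ R).map (fun p => code M r (p.1.1 + p.2) (p.1.2 + v p.2)) = sums M r L R v := by
    simp [sums, SProd.sprod, List.product, List.map_flatMap, Function.comp_def]
  rw [← hp] at hnd
  have := List.inj_on_of_nodup_map hnd (List.mem_product.2 ⟨hl, hf⟩ : (l, f) ∈ L ×ˢ R)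
    (List.mem_product.2 ⟨hl', hf'⟩ : (l', f') ∈ L ×ˢ R) he
  exact Prod.mk.injEq .. ▸ this

/-- The points of a class reached by an exact list, as integers. -/
theorem code_eq_iff {M : ℕ × ℕ} {r : ℕ} (hM : 0 < M.1 ∧ 0 < M.2) (hr : 0 < r)
    (g g' : ℤ × ℤ) (c c' : ℤ) :
    code M r g c = code M r g' c' ↔
      (M.1 : ℤ) ∣ g.1 - g'.1 ∧ (M.2 : ℤ) ∣ g.2 - g'.2 ∧ (r : ℤ) ∣ c - c' := by
  have hlt : ∀ (m : ℕ) (x : ℤ), 0 < m → (x % (m : ℤ)).toNat < m ∧
      ((x % (m : ℤ)).toNat : ℤ) = x % m := fun m x hm => by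
    have := Int.emod_lt_of_pos x (by exact_mod_cast hm : (0 : ℤ) < m)
    have := Int.emod_nonneg x (by exact_mod_cast hm.ne' : (m : ℤ) ≠ 0)
    omega
  have key : ∀ (m : ℕ), 0 < m → ∀ a b a' b' : ℕ, b < m → b' < m →
      (a * m + b = a' * m + b' ↔ a = a' ∧ b = b') := fun m hm a b a' b' hb hb' => by
    refine ⟨fun h => ?_, fun ⟨h1, h2⟩ => by rw [h1, h2]⟩
    have h1 := congrArg (· % m) h
    simp only [Nat.mul_add_mod_self_right, Nat.mod_eq_of_lt hb, Nat.mod_eq_of_lt hb'] at h1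
    exact ⟨Nat.eq_of_mul_eq_mul_right hm (by omega), h1⟩
  have he : ∀ (m : ℕ) (x y : ℤ), 0 < m →
      ((x % (m : ℤ)).toNat = (y % (m : ℤ)).toNat ↔ (m : ℤ) ∣ x - y) := fun m x y hm => by
    rw [← Int.emod_eq_emod_iff_emod_sub_eq_zero.trans (Int.dvd_iff_emod_eq_zero).symm,
      ← (hlt m x hm).2, ← (hlt m y hm).2]
    exact Int.ofNat_inj.symm
  unfold code
  rw [key r hr _ _ _ _ (hlt r c hr).1 (hlt r c' hr).1,
    key M.2 hM.2 _ _ _ _ (hlt M.2 g.2 hM.2).1 (hlt M.2 g'.2 hM.2).1,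
    he r c c' hr, he M.2 g.2 g'.2 hM.2, he M.1 g.1 g'.1 hM.1, and_assoc]

end Vale.Agent.P043.R3.Boxes
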