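import Vale.Agent.P043.R3.Exists.Check

/-!
Helper for P043: the boxes of the tiling (section 4 of notes/P043/R3/PROOF.md).
-/

namespace Vale.Agent.P043.R3.Boxes

/-- Bases of the first factor, exact on three or two stacks. -/
def e1 : ℕ → List ((ℤ × ℤ) × ℤ)
  | 0 => [((0, 0), 0), ((28, 15), 0), ((56, 6), 0), ((57, 0), 0), ((22, 15), 0),
      ((50, 6), 0), ((6, 0), 0), ((34, 15), 0), ((62, 6), 0)]
  | 1 => [((9, 9), 0), ((37, 3), 0), ((2, 6), 0), ((3, 9), 0), ((31, 3), 0),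
      ((59, 6), 0), ((6, 9), 0), ((34, 3), 0), ((62, 6), 0)]
  | _ => [((18, 18), 0), ((46, 12), 0), ((11, 6), 0), ((12, 18), 0), ((40, 12), 0),
      ((5, 6), 0), ((6, 18), 0), ((34, 12), 0), ((62, 6), 0)]

/-- Bases of the second factor, exact on pairs of stacks. -/
def e2 : ℕ → List ((ℤ × ℤ) × ℤ)
  | 0 => [((16, 6), 0), ((1, 2), 0), ((2, 6), 0), ((7, 2), 0), ((8, 8), 0),
      ((13, 4), 0), ((14, 8), 0), ((19, 4), 0)]
  | 1 => [((0, 0), 0), ((5, 2), 0), ((2, 0), 0), ((7, 2), 0), ((8, 8), 0),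
      ((13, 4), 0), ((14, 8), 0), ((19, 4), 0)]
  | _ => [((0, 0), 0), ((5, 6), 0), ((6, 0), 0), ((11, 6), 0)]

/-- Coloured classes of the first factor. -/
def w1 : ℕ → List ((ℤ × ℤ) × ℤ)
  | 0 => [((0, 0), 0), ((28, 0), 1), ((56, 0), 2), ((21, 0), 0), ((49, 0), 1),
      ((14, 0), 2), ((42, 0), 0), ((7, 0), 1), ((35, 0), 2), ((36, 15), 0),
      ((1, 15), 1), ((29, 15), 2), ((57, 15), 0), ((22, 15), 1), ((50, 15), 2),
      ((15, 15), 0), ((43, 15), 1), ((8, 15), 2)]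
  | 1 => [((9, 9), 0), ((37, 9), 1), ((2, 9), 2), ((30, 9), 0), ((58, 9), 1),
      ((23, 9), 2), ((51, 9), 0), ((16, 9), 1), ((44, 9), 2), ((45, 3), 0),
      ((10, 3), 1), ((38, 3), 2), ((3, 3), 0), ((31, 3), 1), ((59, 3), 2),
      ((24, 3), 0), ((52, 3), 1), ((17, 3), 2)]
  | _ => [((18, 18), 0), ((46, 18), 1), ((11, 18), 2), ((39, 18), 0), ((4, 18), 1),
      ((32, 18), 2), ((60, 18), 0), ((25, 18), 1), ((53, 18), 2), ((54, 12), 0),
      ((19, 12), 1), ((47, 12), 2), ((12, 12), 0), ((40, 12), 1), ((5, 12), 2),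
      ((33, 12), 0), ((61, 12), 1), ((26, 12), 2)]

/-- Coloured classes of the second factor. -/
def w2 : ℕ → List ((ℤ × ℤ) × ℤ)
  | 0 => [((0, 0), 0), ((5, 0), 1), ((10, 0), 0), ((15, 0), 1)]
  | 1 => [((16, 6), 0), ((1, 6), 1), ((6, 6), 0), ((11, 6), 1)]
  | _ => [((12, 2), 0), ((17, 2), 1), ((2, 2), 0), ((7, 2), 1), ((8, 8), 0),
      ((13, 8), 1), ((18, 8), 0), ((3, 8), 1), ((4, 4), 0), ((9, 4), 1),
      ((14, 4), 0), ((19, 4), 1)]

/-- The stack of a class of the first factor. -/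
def st1 (k : ℕ) : ℕ := if k % 21 % 3 = 0 then k / 21 % 7 else k % 21 % 7

/-- The stack of a class of the second factor. -/
def st2 (k : ℕ) : ℕ := if k % 10 % 2 = 0 then k / 10 % 5 else k % 10 % 5

/-- The group of a stack of the first factor; `3` is shared. -/
def grp1 (s : ℕ) : ℕ := s / 2

/-- The group of a stack of the second factor. -/
def grp2 (s : ℕ) : ℕ := if s < 2 then s else 2

/-- The classes tiled exactly by the first factor in box `k`. -/
def qe1 (k g : ℕ) : Bool := (grp1 (st1 g) == k) || (grp1 (st1 g) == 3)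

/-- The classes tiled with colours by the first factor in box `k`. -/
def qw1 (k g : ℕ) : Bool := grp1 (st1 g) == k

/-- The classes tiled exactly by the second factor in box `k`. -/
def qe2 (k g : ℕ) : Bool := grp2 (st2 g) != k

/-- The classes tiled with colours by the second factor in box `k`. -/
def qw2 (k g : ℕ) : Bool := grp2 (st2 g) == k

end Vale.Agent.P043.R3.Boxes
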