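import Vale.Agent.P043.R3.Defs
import Vale.Agent.P043.R3.Exists.Data

/-!
Helper for P043: the finite checks of the twelve box factors, by kernel evaluation.
-/

namespace Vale.Agent.P043.R3.Boxes

/-- The points of the first factor as a list. -/
def l1 : List (ℤ × ℤ) :=
  ((List.range 3).flatMap fun m : ℕ => (List.range 7).map fun k : ℕ => (21 * (m : ℤ), 3 * (k : ℤ))) ++
    (((List.range 3).flatMap fun m : ℕ => (List.range 7).map
        fun k : ℕ => (28 * (m : ℤ) + 9 * (k : ℤ) + 63, (7 : ℤ))) ++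
      ((List.range 3).flatMap fun m : ℕ => (List.range 7).map
        fun k : ℕ => (28 * (m : ℤ) + 9 * (k : ℤ), (14 : ℤ))))

/-- The points of the second factor as a list. -/
def l2 : List (ℤ × ℤ) :=
  ((List.range 2).flatMap fun m : ℕ => (List.range 5).map fun k : ℕ => (10 * (m : ℤ), 2 * (k : ℤ))) ++
    ((List.range 2).flatMap fun m : ℕ => (List.range 5).map
      fun k : ℕ => (5 * (m : ℤ) + 4 * (k : ℤ), (5 : ℤ)))

theorem mem_l1 (f : ℤ × ℤ) : f ∈ l1 ↔ f ∈ R1 := by
  simp [l1, R1, and_assoc]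

theorem mem_l2 (f : ℤ × ℤ) : f ∈ l2 ↔ f ∈ R2 := by
  simp [l2, R2, and_assoc]

set_option maxRecDepth 8000 in
theorem check_e1 : ∀ k < 3, check (63, 21) 1 (e1 k) l1 (fun _ => 0) (qe1 k) = true := by
  decide +kernel

set_option maxRecDepth 8000 in
theorem check_w1 : ∀ k < 3, check (63, 21) 3 (w1 k) l1 v1 (qw1 k) = true := by
  decide +kernel

set_option maxRecDepth 8000 in
theorem check_e2 : ∀ k < 3, check (20, 10) 1 (e2 k) l2 (fun _ => 0) (qe2 k) = true := by
  decide +kernel

set_option maxRecDepth 8000 in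
theorem check_w2 : ∀ k < 3, check (20, 10) 2 (w2 k) l2 v2 (qw2 k) = true := by
  decide +kernel

/-- Every class lies in exactly one of the six boxes. -/
theorem box_unique (g h : ℕ) :
    ∃ k < 3, ((qe1 k g && qw2 k h) || (qw1 k g && qe2 k h)) = true ∧
      ∀ k' < 3, ((qe1 k' g && qw2 k' h) = true → k' = k ∧ (qe1 k g && qw2 k h) = true ∧
          (qw1 k g && qe2 k h) = false) ∧
        ((qw1 k' g && qe2 k' h) = true → k' = k ∧ (qw1 k g && qe2 k h) = true ∧
          (qe1 k g && qw2 k h) = false) := by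
  have h1 : st1 g < 7 := by unfold st1; split <;> exact Nat.mod_lt _ (by norm_num)
  have h2 : st2 h < 5 := by unfold st2; split <;> exact Nat.mod_lt _ (by norm_num)
  have key : ∀ s : Fin 7, ∀ t : Fin 5, ∃ k : Fin 3,
      (((grp1 s == k.val) || (grp1 s == 3)) && (grp2 t == k.val) ||
        ((grp1 s == k.val) && (grp2 t != k.val))) = true ∧
      ∀ k' : Fin 3,
        (((grp1 s == k'.val || grp1 s == 3) && (grp2 t == k'.val)) = true → k'.val = k.val ∧
          ((grp1 s == k.val || grp1 s == 3) && (grp2 t == k.val)) = true ∧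
          ((grp1 s == k.val) && (grp2 t != k.val)) = false) ∧
        (((grp1 s == k'.val) && (grp2 t != k'.val)) = true → k'.val = k.val ∧
          ((grp1 s == k.val) && (grp2 t != k.val)) = true ∧
          ((grp1 s == k.val || grp1 s == 3) && (grp2 t == k.val)) = false) := by
    decide
  obtain ⟨k, h3, h4⟩ := key ⟨_, h1⟩ ⟨_, h2⟩
  exact ⟨k, k.2, h3, fun k' hk' => h4 ⟨k', hk'⟩⟩

end Vale.Agent.P043.R3.Boxes
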