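import Vale.Agent.P043.R3.Exists.Checks

/-!
Helper for P043: one box of the tiling, an exact factor times a coloured factor.
-/

namespace Vale.Agent.P043.R3.Boxes

/-- An admissible base: exact in the first slot, a coloured class in the second. -/
def Adm1 (M : ℕ × ℕ) (r : ℕ) (E W : List ((ℤ × ℤ) × ℤ)) (b b' : ℤ × ℤ) (c : ℤ) : Prop :=
  (∃ e ∈ E, b = e.1) ∧ ∃ w ∈ W, code M r b' c = code M r w.1 w.2

theorem code_shift {M : ℕ × ℕ} {r : ℕ} (hM : 0 < M.1 ∧ 0 < M.2) (hr : 0 < r) {b w : ℤ × ℤ}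
    {c d : ℤ} (h : code M r b c = code M r w d) (f : ℤ × ℤ) (t : ℤ) :
    code M r (b + f) (c + t) = code M r (w + f) (d + t) := by
  rw [code_eq_iff hM hr] at h ⊢
  simpa using h

theorem code_one {M : ℕ × ℕ} (g : ℤ × ℤ) (c : ℤ) : code M 1 g c = code M 1 g 0 := by
  simp [code, Int.emod_one]

/-- The one box that meets a row, as exact base, coloured base and points of both factors. -/
theorem side {ME MW : ℕ × ℕ} {r : ℕ} (hME : 0 < ME.1 ∧ 0 < ME.2) (hMW : 0 < MW.1 ∧ 0 < MW.2)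
    (hr : 0 < r) {E W : List ((ℤ × ℤ) × ℤ)} {RE RW : List (ℤ × ℤ)} {vE vW : ℤ × ℤ → ℤ}
    {QE QW : ℕ → Bool} (hE : check ME 1 E RE (fun _ => 0) QE = true)
    (hW : check MW r W RW vW QW = true) (φ : ℤ × ℤ → ℤ × ℤ → ℤ × ℤ) {ρ gE gW : ℤ × ℤ}
    (hcancel : ∀ x y y', φ x y = φ x y' → y = y')
    (hsolve : ∀ x, code ME 1 x 0 = code ME 1 gE 0 → ∃ y, φ x y = ρ)
    (hres : ∀ x y, φ x y = ρ → code ME 1 x 0 = code ME 1 gE 0 ∧ code MW 1 y 0 = code MW 1 gW 0)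
    (hQE : QE (code ME 1 gE 0) = true) (hQW : QW (code MW 1 gW 0) = true) :
    ∃ X Y : ℤ × ℤ, (∀ b b' c, Adm1 MW r E W b b' c → ∀ f ∈ RE, ∀ f' ∈ RW,
        φ (b + f) (b' + f') = ρ → b + f = X ∧ b' + f' = Y) ∧
      ∀ z : ℤ, ∃ b b' c f f', Adm1 MW r E W b b' c ∧ f ∈ RE ∧ f' ∈ RW ∧
        φ (b + f) (b' + f') = ρ ∧ c + vE f + vW f' = z ∧
        ∀ d d' e g g', Adm1 MW r E W d d' e → g ∈ RE → g' ∈ RW →
          φ (d + g) (d' + g') = ρ → e + vE g + vW g' = z →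
          d = b ∧ d' = b' ∧ e = c ∧ g = f ∧ g' = f' := by
  obtain ⟨-, hexE, huE⟩ := check_spec Nat.one_pos hME hE
  obtain ⟨-, hexW, huW⟩ := check_spec hr hMW hW
  obtain ⟨e, he, f, hf, hef⟩ := hexE gE 0 hQE
  rw [code_one] at hef
  obtain ⟨Y, hY⟩ := hsolve _ hef
  have first : ∀ b b' c, Adm1 MW r E W b b' c → ∀ g ∈ RE, ∀ g' ∈ RW,
      φ (b + g) (b' + g') = ρ → b = e.1 ∧ g = f ∧ b' + g' = Y := by
    rintro b b' c ⟨⟨e', he', rfl⟩, -⟩ g hg g' hg' hφ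
    obtain ⟨rfl, rfl⟩ := huE e' he' g hg e he f hf (by
      rw [code_one, code_one (e.1 + f), hef]; exact (hres _ _ hφ).1)
    exact ⟨rfl, rfl, hcancel _ _ _ (hφ.trans hY.symm)⟩
  refine ⟨e.1 + f, Y, fun b b' c hA g hg g' hg' hφ => ?_, fun z => ?_⟩
  · obtain ⟨rfl, rfl, h⟩ := first b b' c hA g hg g' hg' hφ
    exact ⟨rfl, h⟩
  have hYW : code MW 1 Y 0 = code MW 1 gW 0 := (hres _ _ hY).2
  obtain ⟨w, hw, f', hf', hwf⟩ := hexW Y (z - vE f) (by rw [hYW]; exact hQW)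
  refine ⟨e.1, Y - f', z - vE f - vW f', f, f', ⟨⟨e, he, rfl⟩, w, hw, ?_⟩, hf, hf',
    by rw [sub_add_cancel]; exact hY, by ring, ?_⟩
  · have h := code_shift hMW hr hwf.symm (-f') (-vW f')
    simpa [← sub_eq_add_neg] using h
  intro d d' c g g' hA hg hg' hφ hz
  obtain ⟨rfl, rfl, hdY⟩ := first d d' c hA g hg g' hg' hφ
  obtain ⟨-, w', hw', hcw⟩ := hA
  obtain ⟨-, rfl⟩ := huW w' hw' g' hg' w hw f' hf' (by
    rw [← code_shift hMW hr hcw g' (vW g'), hdY, hwf]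
    congr 1
    linarith)
  exact ⟨rfl, eq_sub_of_add_eq hdY, by linarith, rfl, rfl⟩

end Vale.Agent.P043.R3.Boxes
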